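import Mathlib

/-!
P177: Euler characteristics of a module with an approximate filtration.

`D` is a ring, `η` an element such that modules killed by a power of `η` are invisible. `K j` are
additive subgroups of the `D`-module `X`, stable under `D` only up to `η`, `φ j` are additive maps
from `K (j + 1)` to `D`-modules `M j`, bijective modulo `K j` and `D`-linear up to `η`. Then the
Euler characteristic of `X` is the sum of the Euler characteristics of the `M j`.
-/

namespace Vale.Agent.P177.Ap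

universe u

variable {D : Type u} [CommRing D]

/-- An Euler characteristic `θ` on the `D`-modules killed by `q`, defined on the class `Adm` of
admissible modules, which does not see the modules killed by powers of `η`. -/
structure IsTheta (η q : D) (θ : ∀ (X : Type u) [AddCommGroup X] [Module D X], ℝ)
    (Adm : ∀ (X : Type u) [AddCommGroup X] [Module D X], Prop) : Prop where
  zero : ∀ (X : Type u) [AddCommGroup X] [Module D X], (∀ x : X, x = 0) → Adm X ∧ θ X = 0
  iso : ∀ {X Y : Type u} [AddCommGroup X] [Module D X] [AddCommGroup Y] [Module D Y]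
    (f : X →ₗ[D] Y) (k : ℕ), (∀ x : X, q • x = 0) → (∀ y : Y, q • y = 0) →
    (∀ x, f x = 0 → η ^ k • x = 0) → (∀ y, ∃ x, f x = η ^ k • y) →
    (Adm X ↔ Adm Y) ∧ θ X = θ Y
  ext : ∀ {X' X X'' : Type u} [AddCommGroup X'] [Module D X'] [AddCommGroup X] [Module D X]
    [AddCommGroup X''] [Module D X''] (f : X' →ₗ[D] X) (g : X →ₗ[D] X''),
    Function.Injective f → Function.Surjective g → Function.Exact f g →
    (∀ x : X, q • x = 0) → Adm X' → Adm X'' → Adm X ∧ θ X = θ X' + θ X''

section Core

variable {X : Type u} [AddCommGroup X] [Module D X]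

/-- the largest submodule contained in an additive subgroup. -/
def core (K : AddSubgroup X) : Submodule D X where
  carrier := {v | ∀ d : D, d • v ∈ K}
  add_mem' := by
    intro a b ha hb d
    rw [smul_add]
    exact K.add_mem (ha d) (hb d)
  zero_mem' := by
    intro d
    rw [smul_zero]
    exact K.zero_mem
  smul_mem' := by
    intro c v hv d
    rw [smul_smul]
    exact hv _

theorem mem_core {K : AddSubgroup X} {v : X} : v ∈ core (D := D) K ↔ ∀ d : D, d • v ∈ K :=
  Iff.rfl

theorem core_le {K : AddSubgroup X} {v : X} (hv : v ∈ core (D := D) K) : v ∈ K := by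
  have h := hv 1
  rwa [one_smul] at h

theorem core_mono {K K' : AddSubgroup X} (h : K ≤ K') : core (D := D) K ≤ core (D := D) K' :=
  fun _ hv d => h (hv d)

/-- the largest submodule on which an additive map is linear. -/
def linPart {M : Type u} [AddCommGroup M] [Module D M] (K : AddSubgroup X) (φ : K →+ M) :
    Submodule D X where
  carrier := {v | ∃ hv : v ∈ core (D := D) K, ∀ d : D,
    φ ⟨d • v, hv d⟩ = d • φ ⟨v, core_le hv⟩}
  add_mem' := by
    rintro a b ⟨ha, ha'⟩ ⟨hb, hb'⟩
    refine ⟨Submodule.add_mem _ ha hb, fun d => ?_⟩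
    have h1 : (⟨d • (a + b), (Submodule.add_mem _ ha hb) d⟩ : K) =
        ⟨d • a, ha d⟩ + ⟨d • b, hb d⟩ := Subtype.ext (smul_add _ _ _)
    have h2 : (⟨a + b, core_le (Submodule.add_mem _ ha hb)⟩ : K) =
        ⟨a, core_le ha⟩ + ⟨b, core_le hb⟩ := rfl
    rw [h1, h2, map_add, map_add, smul_add, ha', hb']
  zero_mem' := by
    refine ⟨Submodule.zero_mem _, fun d => ?_⟩
    have h1 : (⟨d • (0 : X), (Submodule.zero_mem (core (D := D) K)) d⟩ : K) = 0 :=
      Subtype.ext (smul_zero _)
    have h2 : (⟨(0 : X), core_le (Submodule.zero_mem (core (D := D) K))⟩ : K) = 0 := rfl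
    rw [h1, h2, map_zero, smul_zero]
  smul_mem' := by
    rintro c v ⟨hv, hv'⟩
    refine ⟨Submodule.smul_mem _ c hv, fun d => ?_⟩
    have h1 : (⟨d • c • v, (Submodule.smul_mem _ c hv) d⟩ : K) = ⟨(d * c) • v, hv (d * c)⟩ :=
      Subtype.ext (smul_smul _ _ _)
    rw [h1, hv', mul_smul, hv' c]

/-- the linear map on the part where `φ` is linear. -/
def linMap {M : Type u} [AddCommGroup M] [Module D M] (K : AddSubgroup X) (φ : K →+ M) :
    linPart (D := D) K φ →ₗ[D] M where
  toFun v := φ ⟨v.1, core_le v.2.1⟩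
  map_add' a b := by
    rw [← map_add]
    rfl
  map_smul' d v := v.2.2 d

theorem linMap_apply {M : Type u} [AddCommGroup M] [Module D M] (K : AddSubgroup X) (φ : K →+ M)
    (v : linPart (D := D) K φ) : linMap K φ v = φ ⟨v.1, core_le v.2.1⟩ := rfl

end Core

section Main

variable {η q : D} {θ : ∀ (X : Type u) [AddCommGroup X] [Module D X], ℝ}
  {Adm : ∀ (X : Type u) [AddCommGroup X] [Module D X], Prop}

/-- A submodule of finite `η`-index has the same Euler characteristic. -/
theorem IsTheta.sub (Θ : IsTheta η q θ Adm) {X : Type u} [AddCommGroup X] [Module D X]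
    (hq : ∀ x : X, q • x = 0) {A B : Submodule D X} (hAB : A ≤ B) (k : ℕ)
    (h : ∀ v ∈ B, η ^ k • v ∈ A) : (Adm A ↔ Adm B) ∧ θ A = θ B := by
  refine Θ.iso (Submodule.inclusion hAB) k (fun x => Subtype.ext (hq _))
    (fun x => Subtype.ext (hq _)) (fun x hx => ?_) (fun y => ⟨⟨η ^ k • y.1, h _ y.2⟩, rfl⟩)
  have h1 : x = 0 := Submodule.inclusion_injective hAB (hx.trans (map_zero _).symm)
  rw [h1, smul_zero]

/-- **Approximate filtrations.** -/
theorem IsTheta.filtration (Θ : IsTheta η q θ Adm) {X : Type u} [AddCommGroup X] [Module D X]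
    (hq : ∀ x : X, q • x = 0) (n : ℕ) (K : ℕ → AddSubgroup X) (h0 : K 0 = ⊥) (hn : K n = ⊤)
    (hmono : ∀ j < n, K j ≤ K (j + 1))
    (hst : ∀ j ≤ n, ∀ (d : D), ∀ v ∈ K j, η • d • v ∈ K j)
    (M : ℕ → Type u) [∀ j, AddCommGroup (M j)] [∀ j, Module D (M j)]
    (hM : ∀ j < n, Adm (M j)) (hMq : ∀ j < n, ∀ m : M j, q • m = 0)
    (φ : ∀ j, K (j + 1) →+ M j)
    (hφη : ∀ j < n, ∀ (v : X) (hv : v ∈ K (j + 1)) (hv' : η • v ∈ K (j + 1)),
      φ j ⟨η • v, hv'⟩ = η • φ j ⟨v, hv⟩)
    (hφD : ∀ j < n, ∀ (d : D) (v : X) (hv : v ∈ K (j + 1)) (hv' : d • v ∈ K (j + 1)),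
      η • (φ j ⟨d • v, hv'⟩ - d • φ j ⟨v, hv⟩) = 0)
    (hφ0 : ∀ j < n, ∀ (v : X) (hv : v ∈ K (j + 1)), v ∈ K j → φ j ⟨v, hv⟩ = 0)
    (hφker : ∀ j < n, ∀ (v : X) (hv : v ∈ K (j + 1)), φ j ⟨v, hv⟩ = 0 → η • v ∈ K j)
    (hφsurj : ∀ j < n, ∀ m : M j, ∃ v : K (j + 1), φ j v = η • m) :
    Adm X ∧ θ X = ∑ j ∈ Finset.range n, θ (M j) := by
  -- `η K ≤ core K`
  have hcore : ∀ j ≤ n, ∀ v ∈ K j, η • v ∈ core (D := D) (K j) := by
    intro j hj v hv d
    rw [smul_comm]
    exact hst j hj d v hv
  have hlin : ∀ j < n, ∀ v ∈ core (D := D) (K (j + 1)), η • v ∈ linPart (D := D) (K (j + 1)) (φ j) := by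
    intro j hj v hv
    refine ⟨Submodule.smul_mem _ η hv, fun d => ?_⟩
    have h1 : (⟨d • η • v, (Submodule.smul_mem _ η hv) d⟩ : K (j + 1)) =
        ⟨η • d • v, hcore (j + 1) hj (d • v) (hv d) |> core_le⟩ :=
      Subtype.ext (smul_comm _ _ _)
    rw [h1, hφη j hj (d • v) (hv d), hφη j hj v (core_le hv), smul_comm d η, ← sub_eq_zero,
      ← smul_sub]
    exact hφD j hj d v (core_le hv) (hv d)
  have key : ∀ j ≤ n, Adm (core (D := D) (K j)) ∧
      θ (core (D := D) (K j)) = ∑ i ∈ Finset.range j, θ (M i) := by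
    intro j
    induction j with
    | zero =>
      intro _
      rw [Finset.sum_range_zero]
      refine Θ.zero _ fun x => Subtype.ext ?_
      have h1 : x.1 ∈ (⊥ : AddSubgroup X) := h0 ▸ core_le x.2
      exact h1
    | succ j ih =>
      intro hj
      have hj' : j < n := hj
      obtain ⟨ihA, ihθ⟩ := ih hj'.le
      set A := core (D := D) (K j) with hA
      set B := core (D := D) (K (j + 1)) with hB
      set G := linPart (D := D) (K (j + 1)) (φ j) with hG
      set ψ := linMap (D := D) (K (j + 1)) (φ j) with hψ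
      have hGB : G ≤ B := fun v hv => hv.1
      have hAB : A ≤ B := core_mono (hmono j hj')
      -- the range
      have hr : (Adm (LinearMap.range ψ) ↔ Adm (M j)) ∧ θ (LinearMap.range ψ) = θ (M j) := by
        refine Θ.iso (LinearMap.range ψ).subtype 3 (fun x => Subtype.ext (hMq j hj' _))
          (hMq j hj') (fun x hx => ?_) (fun m => ?_)
        · have h1 : x = 0 := Subtype.ext hx
          rw [h1, smul_zero]
        · obtain ⟨v, hv⟩ := hφsurj j hj' m
          have h1 : η • v.1 ∈ B := hcore (j + 1) hj v.1 v.2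
          have h2 : η • η • v.1 ∈ G := hlin j hj' _ h1
          refine ⟨⟨ψ ⟨_, h2⟩, ⟨_, rfl⟩⟩, ?_⟩
          show φ j ⟨η • η • v.1, _⟩ = η ^ 3 • m
          rw [hφη j hj' (η • v.1) (core_le h1), hφη j hj' v.1 v.2, hv, smul_smul, smul_smul]
          congr 1
          ring
      -- the kernel
      have hk : (Adm (LinearMap.ker ψ) ↔ Adm A) ∧ θ (LinearMap.ker ψ) = θ A := by
        have hAG : (Adm (A ⊓ G : Submodule D X) ↔ Adm A) ∧ θ (A ⊓ G : Submodule D X) = θ A := by
          refine Θ.sub hq inf_le_left 1 fun v hv => ?_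
          rw [pow_one]
          exact ⟨Submodule.smul_mem _ _ hv, hlin j hj' _ (hAB hv)⟩
        have hAK : (Adm (A ⊓ G : Submodule D X) ↔ Adm (LinearMap.ker ψ)) ∧
            θ (A ⊓ G : Submodule D X) = θ (LinearMap.ker ψ) := by
          let f : (A ⊓ G : Submodule D X) →ₗ[D] LinearMap.ker ψ :=
            LinearMap.codRestrict _ (Submodule.inclusion (inf_le_right : A ⊓ G ≤ G)) (by
              intro v
              rw [LinearMap.mem_ker]
              exact hφ0 j hj' v.1 _ (core_le v.2.1))
          refine Θ.iso f 1 (fun x => Subtype.ext (hq _))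
            (fun x => Subtype.ext (Subtype.ext (hq _))) (fun x hx => ?_) (fun y => ?_)
          · have h1 : x = 0 := Subtype.ext (congrArg (fun z => ((z : LinearMap.ker ψ).1 : G).1) hx)
            rw [h1, smul_zero]
          · have h1 : η • y.1.1 ∈ A := by
              intro d
              rw [smul_comm]
              have h2 : d • y ∈ (⊤ : Submodule D (LinearMap.ker ψ)) := trivial
              have h3 : ψ (d • y.1) = 0 := by
                rw [map_smul, LinearMap.mem_ker.1 y.2, smul_zero]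
              exact hφker j hj' (d • y.1.1) (core_le (d • y.1).2.1) h3
            refine ⟨⟨η • y.1.1, h1, Submodule.smul_mem _ _ y.1.2⟩, ?_⟩
            rw [pow_one]
            rfl
        exact ⟨hAK.1.symm.trans hAG.1, hAK.2.symm.trans hAG.2⟩
      have he := Θ.ext (LinearMap.ker ψ).subtype ψ.rangeRestrict
        (Submodule.subtype_injective _) ψ.surjective_rangeRestrict
        (by
          intro v
          rw [← LinearMap.mem_ker, LinearMap.ker_rangeRestrict]
          constructor
          · intro h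
            exact ⟨⟨v, h⟩, rfl⟩
          · rintro ⟨w, rfl⟩
            exact w.2)
        (fun x => Subtype.ext (hq _)) (hk.1.2 ihA) (hr.1.2 (hM j hj'))
      have hGB' := Θ.sub hq hGB 1 (fun v hv => by rw [pow_one]; exact hlin j hj' v hv)
      refine ⟨hGB'.1.1 he.1, ?_⟩
      rw [← hGB'.2, he.2, hk.2, hr.2, ihθ, Finset.sum_range_succ]
  have h1 := key n le_rfl
  have h2 : core (D := D) (K n) = ⊤ := by
    rw [hn]
    exact eq_top_iff.2 fun v _ d => trivial
  have h3 : (Adm (⊤ : Submodule D X) ↔ Adm X) ∧ θ (⊤ : Submodule D X) = θ X := by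
    refine Θ.iso (⊤ : Submodule D X).subtype 0 (fun x => Subtype.ext (hq _)) hq
      (fun x hx => ?_) (fun y => ⟨⟨y, trivial⟩, ?_⟩)
    · have h1 : x = 0 := Subtype.ext hx
      rw [h1, smul_zero]
    · rw [pow_zero, one_smul]
      rfl
  rw [h2] at h1
  exact ⟨h3.1.1 h1.1, h3.2.symm.trans h1.2⟩

end Main

end Vale.Agent.P177.Ap
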