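import Vale.Agent.P177.Ap.Approx
import Vale.Agent.P177.Flag.Core

/-!
P177: the eigenflag filtration when the Pluecker relations hold only after multiplication by `η`,
and the resulting formula for Euler characteristics.
-/

namespace Vale.Agent.P177.Ap

open Vale.Agent.P177.Flag

universe u

section Rel

variable {P E G : Type*} [CommRing P] [AddCommGroup E] [Module P E] [AddCommGroup G] {n : ℕ}

/-- The relations of a full flag, up to `η`. -/
structure FlagRelA (η : P) (T : ∀ j : ℕ, (Fin j → Fin n) → P) : Prop where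
  zero : ∀ t, T 0 t = 1
  same : ∀ (j : ℕ) (ρ : Fin j → Fin n) (t : Fin (j + 2) → Fin n),
    η * wdg (T (j + 1)) (fun i => T (j + 1) (Fin.cons i ρ)) t = 0
  incl : ∀ (j : ℕ) (ρ : Fin j → Fin n) (t : Fin (j + 3) → Fin n),
    η * wdg (T (j + 2)) (fun i => T (j + 1) (Fin.cons i ρ)) t = 0
  step : ∀ (j : ℕ) (ρ : Fin j → Fin n) (t : Fin (j + 1) → Fin n),
    η * (wdg (T j) (fun i => T (j + 1) (Fin.cons i ρ)) t - T j ρ * T (j + 1) t) = 0
  top : ∀ (i : Fin n) (t : Fin (n + 1) → Fin n), η * wdg (T n) (Pi.single i (1 : P)) t = 0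

/-- `X` acts on the `j`-th graded piece of the flag by `c j`, up to `η`. -/
def EigRelA (η : P) (T : ∀ j : ℕ, (Fin j → Fin n) → P) (X : Matrix (Fin n) (Fin n) P)
    (c : ℕ → P) : Prop :=
  ∀ (j : ℕ), j < n → ∀ (ρ : Fin j → Fin n) (t : Fin (j + 1) → Fin n),
    η * wdg (T j) (fun i => (∑ l, X i l * T (j + 1) (Fin.cons l ρ))
      - c j * T (j + 1) (Fin.cons i ρ)) t = 0

/-- The kernel filtration, up to `η`. -/
def KA (η : P) (T : ∀ j : ℕ, (Fin j → Fin n) → P) (M : G → AddSubgroup E) (j : ℕ) (s : G) :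
    AddSubgroup (Fin n → E) where
  carrier := {v | (∀ i, v i ∈ M s) ∧ ∀ t, η ^ j • wdg (T j) v t = 0}
  zero_mem' := ⟨fun _ => (M s).zero_mem, fun t => by rw [wdg_zero, smul_zero]⟩
  add_mem' := by
    rintro v w ⟨h1, h2⟩ ⟨h3, h4⟩
    exact ⟨fun i => (M s).add_mem (h1 i) (h3 i), fun t => by
      rw [wdg_add, smul_add, h2, h4, add_zero]⟩
  neg_mem' := by
    rintro v ⟨h1, h2⟩
    exact ⟨fun i => (M s).neg_mem (h1 i), fun t => by rw [wdg_neg, smul_neg, h2, neg_zero]⟩

variable {η : P} {T : ∀ j : ℕ, (Fin j → Fin n) → P} {d : ℕ → G} {M : G → AddSubgroup E}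

omit [AddCommGroup G] in
theorem mem_KA {j : ℕ} {s : G} {v : Fin n → E} :
    v ∈ KA η T M j s ↔ (∀ i, v i ∈ M s) ∧ ∀ t, η ^ j • wdg (T j) v t = 0 := Iff.rfl

omit [AddCommGroup G] in
theorem KA_zero (hT : FlagRelA η T) (s : G) {v : Fin n → E} :
    v ∈ KA η T M 0 s ↔ v = 0 := by
  constructor
  · rintro ⟨-, h2⟩
    funext i
    have := h2 (fun _ => i)
    rwa [pow_zero, one_smul, wdg_zero_deg _ hT.zero] at this
  · rintro rfl
    exact AddSubgroup.zero_mem _

omit [AddCommGroup G] in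
theorem pow_mem_M (hη : ∀ s, ∀ e ∈ M s, η • e ∈ M s) {s : G} {e : E} (he : e ∈ M s) (k : ℕ) :
    η ^ k • e ∈ M s := by
  induction k with
  | zero => rwa [pow_zero, one_smul]
  | succ k ih => rw [pow_succ', mul_smul]; exact hη _ _ ih

/-- If `v ∧ T = 0` then `T τ • v` is a combination of contractions (signs outside). -/
theorem smul_of_wdg {j : ℕ} (T : (Fin (j + 1) → Fin n) → P) (w : Fin n → E)
    (hw : ∀ t, wdg T w t = 0) (τ : Fin (j + 1) → Fin n) :
    T τ • w = ∑ k : Fin (j + 1), ((-1 : P) ^ (k : ℕ)) • (fun i =>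
      T (Fin.cons i (fun l => τ (k.succAbove l))) • w (τ k)) := by
  rw [smul_of_wdg_eq_zero _ _ hw τ]
  refine Finset.sum_congr rfl fun k _ => ?_
  funext i; simp [mul_smul]

/-- wedging with `S` a vector killed by the wedge with `T`. -/
theorem wdg_of_rel {j j' : ℕ} (T : (Fin (j + 1) → Fin n) → P) (S : (Fin j' → Fin n) → P)
    (hrel : ∀ (ρ : Fin j → Fin n) (t : Fin (j' + 1) → Fin n),
      η * wdg S (fun i => T (Fin.cons i ρ)) t = 0)
    (w : Fin n → E) (hw : ∀ t, wdg T w t = 0) (τ : Fin (j + 1) → Fin n)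
    (t : Fin (j' + 1) → Fin n) : T τ • (η • wdg S w t) = 0 := by
  rw [smul_comm (T τ) η, ← wdg_smul, smul_of_wdg T w hw τ, wdg_sum, Finset.smul_sum]
  refine Finset.sum_eq_zero fun k _ => ?_
  rw [wdg_smul, wdg_smul_const, smul_comm η, smul_smul η, hrel, zero_smul, smul_zero]

theorem KA_mono (hT : FlagRelA η T) (hM : Graded T d M)
    (hη : ∀ s, ∀ e ∈ M s, η • e ∈ M s) (j : ℕ) (hj : j < n) (s : G) :
    KA η T M j s ≤ KA η T M (j + 1) s := by
  intro v hv
  cases j with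
  | zero =>
    rw [(KA_zero hT s).1 hv]
    exact AddSubgroup.zero_mem _
  | succ j =>
    refine ⟨hv.1, fun t => ?_⟩
    have hmem : wdg (T (j + 1 + 1)) v t ∈ M (s + d (j + 1 + 1)) := hM.wdg_mem hv.1 t
    refine hM.inj (j + 1) hj.le _ _ (pow_mem_M hη hmem _) fun τ => ?_
    have h1 := wdg_of_rel (η := η) (T (j + 1)) (T (j + 1 + 1)) (hT.incl j) (η ^ (j + 1) • v)
      (fun t => by rw [wdg_smul]; exact hv.2 t) τ t
    rw [wdg_smul, smul_smul η, ← pow_succ'] at h1
    exact h1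

omit [AddCommGroup G] in
theorem KA_top (hT : FlagRelA η T) (hn : 0 < n) {s : G} {v : Fin n → E}
    (hv : ∀ i, v i ∈ M s) : v ∈ KA η T M n s := by
  refine ⟨hv, fun t => ?_⟩
  have h1 : v = ∑ i, (fun k => (Pi.single i (1 : P) : Fin n → P) k • v i) := by
    funext k
    rw [Finset.sum_apply]
    simp [Pi.single_apply]
  obtain ⟨m, rfl⟩ := Nat.exists_eq_succ_of_ne_zero hn.ne'
  rw [h1, wdg_sum, Finset.smul_sum]
  refine Finset.sum_eq_zero fun i _ => ?_
  rw [wdg_smul_const, smul_smul, pow_succ, mul_assoc, hT.top, mul_zero, zero_smul]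

/-- The eigenvector relation, up to powers of `η`. -/
theorem eig_A (hM : Graded T d M) (hη : ∀ s, ∀ e ∈ M s, η • e ∈ M s)
    {X : Matrix (Fin n) (Fin n) P} {c : ℕ → P} (hX : EigRelA η T X c) {j : ℕ} (hj : j < n) {s : G}
    (hXM : ∀ i l, ∀ e ∈ M s, X i l • e ∈ M s) (hcM : ∀ e ∈ M s, c j • e ∈ M s)
    {v : Fin n → E} (hv : v ∈ KA η T M (j + 1) s) (t : Fin (j + 1) → Fin n) :
    η ^ (j + 2) • wdg (T j) (act X v - c j • v) t = 0 := by
  have hmem : ∀ i, (act X v - c j • v) i ∈ M s := fun i =>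
    (M s).sub_mem (act_mem hXM hv.1 i) (hcM _ (hv.1 i))
  refine hM.inj (j + 1) hj _ _ (pow_mem_M hη (hM.wdg_mem hmem t) _) fun τ => ?_
  set w : Fin n → E := η ^ (j + 1) • v with hw
  have hw0 : ∀ t, wdg (T (j + 1)) w t = 0 := fun t => by rw [hw, wdg_smul]; exact hv.2 t
  have h1 : η ^ (j + 2) • wdg (T j) (act X v - c j • v) t =
      η • wdg (T j) (act X w - c j • w) t := by
    rw [hw, act_smul, smul_comm (c j), ← smul_sub, wdg_smul, smul_smul η, ← pow_succ']
  rw [h1, smul_comm (T (j + 1) τ), ← wdg_smul, smul_sub, ← act_smul,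
    smul_comm (T (j + 1) τ) (c j) w, smul_of_wdg _ w hw0 τ,
    act_sum, Finset.smul_sum, ← Finset.sum_sub_distrib, wdg_sum, Finset.smul_sum]
  refine Finset.sum_eq_zero fun k _ => ?_
  rw [act_smul, smul_comm (c j), ← smul_sub, wdg_smul, act_smul_const]
  have : ((fun i => (∑ l, X i l * T (j + 1) (Fin.cons l (fun l => τ (k.succAbove l)))) • w (τ k)) -
      c j • fun i => T (j + 1) (Fin.cons i (fun l => τ (k.succAbove l))) • w (τ k))
      = fun i => ((∑ l, X i l * T (j + 1) (Fin.cons l (fun l => τ (k.succAbove l))))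
        - c j * T (j + 1) (Fin.cons i (fun l => τ (k.succAbove l)))) • w (τ k) := by
    funext i
    simp only [Pi.sub_apply, Pi.smul_apply, sub_smul, mul_smul]
  rw [this, wdg_smul_const, smul_comm η, smul_smul η, hX j hj, zero_smul, smul_zero]

/-- A matrix satisfying the eigenvector relations preserves the filtration up to `η ^ 2`. -/
theorem act_KA (hT : FlagRelA η T) (hM : Graded T d M)
    (hη : ∀ s, ∀ e ∈ M s, η • e ∈ M s)
    {X : Matrix (Fin n) (Fin n) P} {c : ℕ → P} (hX : EigRelA η T X c) {j : ℕ} (hj : j < n) {s : G}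
    (hXM : ∀ i l, ∀ e ∈ M s, X i l • e ∈ M s) (hcM : ∀ e ∈ M s, c j • e ∈ M s)
    {v : Fin n → E} (hv : v ∈ KA η T M (j + 1) s) :
    η ^ 2 • act X v ∈ KA η T M (j + 1) s := by
  have hmemX : ∀ i, act X v i ∈ M s := fun i => act_mem hXM hv.1 i
  have hmem : ∀ i, (act X v - c j • v) i ∈ M s := fun i =>
    (M s).sub_mem (hmemX i) (hcM _ (hv.1 i))
  refine ⟨fun i => pow_mem_M hη (hmemX i) 2, fun t => ?_⟩
  -- the difference
  have h1 : η ^ (j + 3) • wdg (T (j + 1)) (act X v - c j • v) t = 0 := by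
    cases j with
    | zero =>
      have h2 : ∀ i, η ^ 2 • (act X v - c 0 • v) i = 0 := fun i => by
        have := eig_A hM hη hX hj hXM hcM hv (fun _ => i)
        rwa [wdg_zero_deg _ hT.zero] at this
      have h3 : η ^ 2 • (act X v - c 0 • v) = 0 := funext h2
      rw [show 0 + 3 = 1 + 2 from rfl, pow_add, mul_smul, ← wdg_smul, h3, wdg_zero, smul_zero]
    | succ j =>
      refine hM.inj (j + 1) hj.le _ _ (pow_mem_M hη (hM.wdg_mem hmem t) _) fun τ => ?_
      have h2 := wdg_of_rel (η := η) (T (j + 1)) (T (j + 1 + 1)) (hT.incl j)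
        (η ^ (j + 1 + 2) • (act X v - c (j + 1) • v))
        (fun t => by rw [wdg_smul]; exact eig_A hM hη hX hj hXM hcM hv t) τ t
      rw [wdg_smul, smul_smul η, ← pow_succ'] at h2
      exact h2
  have h2 : act X v = (act X v - c j • v) + c j • v := by abel
  rw [wdg_smul, smul_smul, ← pow_add, show j + 1 + 2 = j + 3 from rfl, h2, wdg_add, smul_add, h1,
    zero_add, wdg_smul, smul_comm, show j + 3 = 2 + (j + 1) by ring, pow_add, mul_smul, hv.2,
    smul_zero, smul_zero]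

/-- The wedge of `v ∈ K (j+1)` with `T j` is proportional to `T (j+1)`, up to a power of `η`. -/
theorem prop_A (hT : FlagRelA η T) (hM : Graded T d M)
    (hη : ∀ s, ∀ e ∈ M s, η • e ∈ M s) {j : ℕ} (hj : j < n) {s : G}
    {v : Fin n → E} (hv : v ∈ KA η T M (j + 1) s) (t t' : Fin (j + 1) → Fin n) :
    T (j + 1) t' • η ^ (j + 2) • wdg (T j) v t = T (j + 1) t • η ^ (j + 2) • wdg (T j) v t' := by
  have key : T (j + 1) t' • η ^ (j + 2) • wdg (T j) v t -
      T (j + 1) t • η ^ (j + 2) • wdg (T j) v t' = 0 := by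
    refine hM.inj (j + 1) hj ((s + d j) + d (j + 1)) _ ?_ fun τ => ?_
    · exact (M _).sub_mem (hM.mem _ _ _ _ (pow_mem_M hη (hM.wdg_mem hv.1 t) _))
        (hM.mem _ _ _ _ (pow_mem_M hη (hM.wdg_mem hv.1 t') _))
    · set w : Fin n → E := η ^ (j + 1) • v with hw
      have hw0 : ∀ t, wdg (T (j + 1)) w t = 0 := fun t => by rw [hw, wdg_smul]; exact hv.2 t
      have h1 : ∀ t : Fin (j + 1) → Fin n, T (j + 1) τ • η ^ (j + 2) • wdg (T j) v t =
          ∑ k : Fin (j + 1), ((-1 : P) ^ (k : ℕ)) •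
            ((η * (T j (fun l => τ (k.succAbove l)) * T (j + 1) t)) • w (τ k)) := by
        intro t
        have h2 : η ^ (j + 2) • wdg (T j) v t = η • wdg (T j) w t := by
          rw [hw, wdg_smul, smul_smul η, ← pow_succ']
        rw [h2, smul_comm (T (j + 1) τ) η, ← wdg_smul, smul_of_wdg _ w hw0 τ, wdg_sum,
          Finset.smul_sum]
        refine Finset.sum_congr rfl fun k _ => ?_
        rw [wdg_smul, wdg_smul_const, smul_comm η, smul_smul η]
        congr 2
        have h3 := hT.step j (fun l => τ (k.succAbove l)) t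
        rw [mul_sub, sub_eq_zero] at h3
        exact h3
      rw [smul_sub, smul_comm (T (j + 1) τ) (T (j + 1) t'), smul_comm (T (j + 1) τ) (T (j + 1) t),
        h1, h1, Finset.smul_sum, Finset.smul_sum, ← Finset.sum_sub_distrib]
      refine Finset.sum_eq_zero fun k _ => ?_
      rw [smul_comm (T (j + 1) t'), smul_comm (T (j + 1) t), ← smul_sub, smul_smul, smul_smul]
      rw [show T (j + 1) t' * (η * (T j (fun l => τ (k.succAbove l)) * T (j + 1) t))
        = T (j + 1) t * (η * (T j (fun l => τ (k.succAbove l)) * T (j + 1) t')) by ring]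
      simp
  exact sub_eq_zero.mp key

theorem coord_unique_A (hM : Graded T d M) {j : ℕ} (hj : j ≤ n) {s : G} {a b : E}
    (ha : a ∈ M s) (hb : b ∈ M s) (h : ∀ t, T j t • a = T j t • b) : a = b := by
  rw [← sub_eq_zero]
  exact hM.inj j hj s _ ((M s).sub_mem ha hb) fun t => by rw [smul_sub, h, sub_self]

theorem exists_coord_A (hT : FlagRelA η T) (hM : Graded T d M)
    (hη : ∀ s, ∀ e ∈ M s, η • e ∈ M s) {j : ℕ} (hj : j < n) {s : G}
    (hcol : Col T d M (j + 1) (s + d j)) {v : Fin n → E} (hv : v ∈ KA η T M (j + 1) s) :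
    ∃ a ∈ M (s + d j - d (j + 1)), ∀ t, η ^ (n + 1) • wdg (T j) v t = T (j + 1) t • a := by
  refine hcol _ (fun t => pow_mem_M hη (hM.wdg_mem hv.1 t) _) fun t t' => ?_
  have h1 := prop_A hT hM hη hj hv t t'
  obtain ⟨k, hk⟩ := Nat.exists_eq_add_of_le (show j + 2 ≤ n + 1 by omega)
  rw [hk, add_comm (j + 2) k, pow_add, mul_smul, mul_smul, smul_comm (T (j + 1) t'),
    smul_comm (T (j + 1) t), h1]

/-- The coordinate map. -/
noncomputable def coordA (hT : FlagRelA η T) (hM : Graded T d M)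
    (hη : ∀ s, ∀ e ∈ M s, η • e ∈ M s) {j : ℕ} (hj : j < n) {s : G}
    (hcol : Col T d M (j + 1) (s + d j)) :
    (KA η T M (j + 1) s) →+ (M (s + d j - d (j + 1))) where
  toFun v := ⟨(exists_coord_A hT hM hη hj hcol v.2).choose,
    (exists_coord_A hT hM hη hj hcol v.2).choose_spec.1⟩
  map_zero' := by
    apply Subtype.ext
    have h := (exists_coord_A hT hM hη hj hcol (KA η T M (j + 1) s).zero_mem).choose_spec
    refine coord_unique_A (j := j + 1) hM hj h.1 (AddSubgroup.zero_mem _) fun t => ?_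
    have h2 := h.2 t
    refine h2.symm.trans ?_
    rw [wdg_zero]
    simp
  map_add' v w := by
    apply Subtype.ext
    have hv := (exists_coord_A hT hM hη hj hcol v.2).choose_spec
    have hw := (exists_coord_A hT hM hη hj hcol w.2).choose_spec
    have hvw := (exists_coord_A hT hM hη hj hcol (v + w).2).choose_spec
    refine coord_unique_A (j := j + 1) hM hj hvw.1 (AddSubgroup.add_mem _ hv.1 hw.1)
      fun t => ?_
    refine (hvw.2 t).symm.trans ?_
    change η ^ (n + 1) • wdg (T j) ((v : Fin n → E) + (w : Fin n → E)) t =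
      T (j + 1) t • (_ + _)
    rw [smul_add, wdg_add, smul_add, hv.2 t, hw.2 t]

theorem coordA_spec (hT : FlagRelA η T) (hM : Graded T d M)
    (hη : ∀ s, ∀ e ∈ M s, η • e ∈ M s) {j : ℕ} (hj : j < n) {s : G}
    (hcol : Col T d M (j + 1) (s + d j)) (v : KA η T M (j + 1) s) (t : Fin (j + 1) → Fin n) :
    η ^ (n + 1) • wdg (T j) (v : Fin n → E) t =
      T (j + 1) t • ((coordA hT hM hη hj hcol v : M _) : E) :=
  (exists_coord_A hT hM hη hj hcol v.2).choose_spec.2 t

theorem coordA_eq (hT : FlagRelA η T) (hM : Graded T d M)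
    (hη : ∀ s, ∀ e ∈ M s, η • e ∈ M s) {j : ℕ} (hj : j < n) {s : G}
    (hcol : Col T d M (j + 1) (s + d j)) (v : KA η T M (j + 1) s)
    (a : M (s + d j - d (j + 1)))
    (h : ∀ t, η ^ (n + 1) • wdg (T j) (v : Fin n → E) t = T (j + 1) t • (a : E)) :
    coordA hT hM hη hj hcol v = a := by
  apply Subtype.ext
  refine coord_unique_A (j := j + 1) hM hj (coordA hT hM hη hj hcol v).2 a.2 fun t => ?_
  rw [← coordA_spec, h]

/-- Surjectivity up to `η ^ (n + 1)`. -/
theorem exists_of_coord_A (hT : FlagRelA η T) (hM : Graded T d M)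
    (hη : ∀ s, ∀ e ∈ M s, η • e ∈ M s) {j : ℕ} (hj : j < n) {s : G}
    (hcol : Col T d M (j + 1) (s + d j)) (hsko : Sko T d M j (s + d j - d (j + 1)))
    (a : M (s + d j - d (j + 1))) :
    ∃ v : KA η T M (j + 1) s, ((coordA hT hM hη hj hcol v : M _) : E) = η ^ (n + 1) • (a : E) := by
  obtain ⟨g, hg, hag⟩ := hsko a.1 a.2
  have hg' : ∀ ρ, g ρ ∈ M (s - d (j + 1)) := by
    intro ρ
    have := hg ρ
    rwa [show s + d j - d (j + 1) - d j = s - d (j + 1) by abel] at this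
  have hv : (∑ ρ, fun i => T (j + 1) (Fin.cons i ρ) • g ρ) ∈ KA η T M (j + 1) s := by
    refine ⟨fun i => ?_, fun t => ?_⟩
    · rw [Finset.sum_apply]
      refine AddSubgroup.sum_mem _ fun ρ _ => ?_
      have := hM.mem (j + 1) (Fin.cons i ρ) _ _ (hg' ρ)
      rwa [sub_add_cancel] at this
    · rw [wdg_sum, Finset.smul_sum]
      refine Finset.sum_eq_zero fun ρ _ => ?_
      rw [wdg_smul_const, smul_smul, pow_succ, mul_assoc, hT.same, mul_zero, zero_smul]
  refine ⟨⟨_, hv⟩, ?_⟩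
  have h1 := coordA_eq hT hM hη hj hcol ⟨_, hv⟩ ⟨η ^ (n + 1) • (a : E), pow_mem_M hη a.2 _⟩
    (fun t => ?_)
  · rw [h1]
  · show η ^ (n + 1) • wdg (T j) (∑ ρ, fun i => T (j + 1) (Fin.cons i ρ) • g ρ) t =
      T (j + 1) t • η ^ (n + 1) • (a : E)
    rw [hag, wdg_sum, Finset.smul_sum, Finset.smul_sum, Finset.smul_sum]
    refine Finset.sum_congr rfl fun ρ _ => ?_
    rw [wdg_smul_const, smul_comm (T (j + 1) t), pow_succ, mul_smul, mul_smul]
    congr 1
    have h3 := hT.step j ρ t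
    rw [mul_sub, sub_eq_zero] at h3
    rw [smul_smul, h3, smul_smul (T (j + 1) t), smul_smul η]
    congr 1
    ring

end Rel

section Theta

variable {D : Type u} [CommRing D] {η' q : D}
  {θ : ∀ (X : Type u) [AddCommGroup X] [Module D X], ℝ}
  {Adm : ∀ (X : Type u) [AddCommGroup X] [Module D X], Prop}

theorem IsTheta.pow (Θ : IsTheta η' q θ Adm) (m : ℕ) : IsTheta (η' ^ m) q θ Adm where
  zero := Θ.zero
  iso f k h1 h2 h3 h4 := by
    refine Θ.iso f (m * k) h1 h2 (fun x hx => ?_) (fun y => ?_)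
    · rw [pow_mul]
      exact h3 x hx
    · rw [pow_mul]
      exact h4 y
  ext := Θ.ext

variable {P E G : Type*} [CommRing P] [AddCommGroup E] [Module P E] [AddCommGroup G] {n : ℕ}
  {η : P} {T : ∀ j : ℕ, (Fin j → Fin n) → P} {d : ℕ → G} {M : G → AddSubgroup E}

/-- **The flag formula.** `X` is the `D`-module `(M s) ^ n`, on which `D` acts through matrices
with eigencharacters `c j` with respect to an approximate flag; the pieces are isomorphic to the
`D`-modules `N j` up to `η ^ k`. -/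
theorem IsTheta.flagK (k : ℕ) (Θ : IsTheta η' q θ Adm) (hT : FlagRelA η T) (hM : Graded T d M)
    (hη : ∀ s, ∀ e ∈ M s, η • e ∈ M s) (hn : 0 < n) (s : G)
    (hcol : ∀ j < n, Col T d M (j + 1) (s + d j))
    (hsko : ∀ j < n, Sko T d M j (s + d j - d (j + 1)))
    {X : Type u} [AddCommGroup X] [Module D X] (hq : ∀ x : X, q • x = 0)
    (ι : X →+ (Fin n → E)) (hι : Function.Injective ι) (hιM : ∀ x i, ι x i ∈ M s)
    (hιs : ∀ v : Fin n → E, (∀ i, v i ∈ M s) → ∃ x, ι x = v)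
    (A : D → Matrix (Fin n) (Fin n) P) (hA : ∀ r x, ι (r • x) = act (A r) (ι x))
    (hAM : ∀ r i l, ∀ e ∈ M s, A r i l • e ∈ M s)
    (c : D → ℕ → P) (hcM : ∀ r j s, ∀ e ∈ M s, c r j • e ∈ M s)
    (hEig : ∀ r, EigRelA η T (A r) (c r))
    (hη' : ∀ x, ι (η' • x) = η • ι x) (hcη : ∀ j, c η' j = η)
    (N : ℕ → Type u) [∀ j, AddCommGroup (N j)] [∀ j, Module D (N j)]
    (hN : ∀ j < n, Adm (N j)) (hNq : ∀ j < n, ∀ m : N j, q • m = 0)
    (π : ∀ j, M (s + d j - d (j + 1)) →+ N j) (hπ : ∀ j < n, ∀ m : N j, ∃ e, π j e = η' ^ k • m)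
    (hπ0 : ∀ j < n, ∀ e, π j e = 0 → η ^ k • (e : E) = 0)
    (hπD : ∀ j < n, ∀ (r : D) (e : M (s + d j - d (j + 1))),
      π j ⟨c r j • (e : E), hcM r j _ _ e.2⟩ = r • π j e) :
    Adm X ∧ θ X = ∑ j ∈ Finset.range n, θ (N j) := by
  classical
  -- powers of `η'`
  have hη'p : ∀ k x, ι (η' ^ k • x) = η ^ k • ι x := by
    intro k
    induction k with
    | zero => intro x; rw [pow_zero, pow_zero, one_smul, one_smul]
    | succ k ih => intro x; rw [pow_succ', mul_smul, hη', ih, pow_succ', mul_smul]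
  have hπη : ∀ j < n, ∀ k (e : M (s + d j - d (j + 1))),
      π j ⟨η ^ k • (e : E), pow_mem_M hη e.2 k⟩ = η' ^ k • π j e := by
    intro j hj k
    induction k with
    | zero =>
      intro e
      have h0 : (⟨η ^ 0 • (e : E), pow_mem_M hη e.2 0⟩ : M (s + d j - d (j + 1))) = e :=
        Subtype.ext (by
          show η ^ 0 • (e : E) = e
          rw [pow_zero, one_smul])
      rw [h0, pow_zero, one_smul]
    | succ k ih =>
      intro e
      have h1 := hπD j hj η' ⟨η ^ k • (e : E), pow_mem_M hη e.2 k⟩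
      rw [ih] at h1
      have h0 : (⟨η ^ (k + 1) • (e : E), pow_mem_M hη e.2 (k + 1)⟩ :
          M (s + d j - d (j + 1))) = ⟨c η' j • η ^ k • (e : E), hcM η' j _ _
            (pow_mem_M hη e.2 k)⟩ :=
        Subtype.ext (by
          show η ^ (k + 1) • (e : E) = c η' j • η ^ k • (e : E)
          rw [hcη, smul_smul, ← pow_succ'])
      rw [h0, h1, smul_smul, ← pow_succ']
  let K' : ℕ → AddSubgroup X := fun j => (KA η T M j s).comap ι
  let ιK : ∀ j, K' j →+ KA η T M j s := fun j =>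
    { toFun := fun x => ⟨ι x.1, x.2⟩
      map_zero' := Subtype.ext (map_zero ι)
      map_add' := fun x y => Subtype.ext (map_add ι _ _) }
  let φ : ∀ j, K' (j + 1) →+ N j := fun j =>
    if hj : j < n then (π j).comp ((coordA hT hM hη hj (hcol j hj)).comp (ιK (j + 1))) else 0
  have hφ : ∀ j (hj : j < n) (v : K' (j + 1)),
      φ j v = π j (coordA hT hM hη hj (hcol j hj) (ιK (j + 1) v)) := by
    intro j hj v
    simp only [φ, dif_pos hj]
    rfl
  refine (Θ.pow (n + 2 + k)).filtration hq n K' ?_ ?_ ?_ ?_ N hN hNq φ ?_ ?_ ?_ ?_ ?_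
  · -- `K 0`
    rw [eq_bot_iff]
    intro x hx
    have h1 : ι x = 0 := (KA_zero hT s).1 hx
    exact hι (h1.trans (map_zero ι).symm)
  · -- `K n`
    rw [eq_top_iff]
    intro x _
    exact KA_top hT hn (hιM x)
  · intro j hj x hx
    exact KA_mono hT hM hη j hj s hx
  · -- stability
    intro j hj r x hx
    show ι _ ∈ KA η T M j s
    rw [hη'p, hA]
    cases j with
    | zero =>
      have h1 : ι x = 0 := (KA_zero hT s).1 hx
      rw [h1]
      have h2 : act (A r) (0 : Fin n → E) = 0 := by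
        funext i
        simp [act]
      rw [h2, smul_zero]
      exact AddSubgroup.zero_mem _
    | succ j =>
      have h1 := act_KA hT hM hη (hEig r) hj (hAM r) (hcM r j s) hx
      rw [show n + 2 + k = (n + k) + 2 by ring, pow_add, mul_smul]
      refine ⟨fun i => ?_, fun t => ?_⟩
      · exact pow_mem_M hη (h1.1 i) (n + k)
      · rw [wdg_smul, smul_comm, h1.2, smul_zero]
  · -- `η'`-linearity
    intro j hj v hv hv'
    rw [hφ j hj, hφ j hj, ← hπη j hj]
    congr 1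
    refine coordA_eq hT hM hη hj (hcol j hj) _ _ fun t => ?_
    show η ^ (n + 1) • wdg (T j) (ι (η' ^ (n + 2 + k) • v)) t = T (j + 1) t • η ^ (n + 2 + k) • _
    rw [hη'p, wdg_smul, smul_comm (η ^ (n + 1)), smul_comm (T (j + 1) t)]
    congr 1
    exact coordA_spec hT hM hη hj (hcol j hj) (ιK (j + 1) ⟨v, hv⟩) t
  · -- `D`-linearity
    intro j hj r v hv hv'
    have h1 : φ j ⟨r • v, hv'⟩ = r • φ j ⟨v, hv⟩ := by
      rw [hφ j hj, hφ j hj, ← hπD j hj]
      congr 1
      refine coordA_eq hT hM hη hj (hcol j hj) _ _ fun t => ?_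
      show η ^ (n + 1) • wdg (T j) (ι (r • v)) t = T (j + 1) t • c r j • _
      rw [smul_comm (T (j + 1) t) (c r j)]
      have h2 := coordA_spec hT hM hη hj (hcol j hj) (ιK (j + 1) ⟨v, hv⟩) t
      rw [← h2]
      show η ^ (n + 1) • wdg (T j) (ι (r • v)) t = c r j • η ^ (n + 1) • wdg (T j) (ι v) t
      have h3 := eig_A hM hη (hEig r) hj (hAM r) (hcM r j s) hv t
      obtain ⟨l, hl⟩ := Nat.exists_eq_add_of_le (show j + 2 ≤ n + 1 by omega)
      have h4 : η ^ (n + 1) • wdg (T j) (act (A r) (ι v) - c r j • ι v) t = 0 := by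
        rw [hl, add_comm (j + 2) l, pow_add, mul_smul, h3, smul_zero]
      have h5 : act (A r) (ι v) = (act (A r) (ι v) - c r j • ι v) + c r j • ι v := by abel
      rw [hA, h5, wdg_add, smul_add, h4, zero_add, wdg_smul, smul_comm]
    rw [h1, sub_self, smul_zero]
  · -- zero on `K j`
    intro j hj v hv hv'
    rw [hφ j hj]
    have h1 : coordA hT hM hη hj (hcol j hj) (ιK (j + 1) ⟨v, hv⟩) = 0 := by
      refine coordA_eq hT hM hη hj (hcol j hj) _ _ fun t => ?_
      show η ^ (n + 1) • wdg (T j) (ι v) t = T (j + 1) t • (0 : E)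
      obtain ⟨l, hl⟩ := Nat.exists_eq_add_of_le (show j ≤ n + 1 by omega)
      rw [smul_zero, hl, add_comm j l, pow_add, mul_smul, hv'.2 t, smul_zero]
    rw [h1, map_zero]
  · -- kernel
    intro j hj v hv h0
    rw [hφ j hj] at h0
    have h1 := hπ0 j hj _ h0
    have h2 : ∀ t, η ^ (n + 2 + k) • wdg (T j) (ι v) t = 0 := by
      intro t
      have h3 := coordA_spec hT hM hη hj (hcol j hj) (ιK (j + 1) ⟨v, hv⟩) t
      have h4 : η ^ k • η ^ (n + 1) • wdg (T j) (ι v) t = 0 := by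
        have h5 : η ^ (n + 1) • wdg (T j) (ι v) t = _ := h3
        rw [h5, smul_comm, h1, smul_zero]
      rw [show n + 2 + k = 1 + (k + (n + 1)) by ring, pow_add, mul_smul, pow_add, mul_smul, h4,
        smul_zero]
    show ι _ ∈ KA η T M j s
    rw [hη'p]
    refine ⟨fun i => pow_mem_M hη (hιM v i) _, fun t => ?_⟩
    rw [wdg_smul, h2, smul_zero]
  · -- cokernel
    intro j hj m
    obtain ⟨e, he⟩ := hπ j hj m
    obtain ⟨v, hv⟩ := exists_of_coord_A hT hM hη hj (hcol j hj) (hsko j hj) e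
    obtain ⟨x, hx⟩ := hιs v.1 v.2.1
    have hxK : η' • x ∈ K' (j + 1) := by
      show ι _ ∈ KA η T M (j + 1) s
      rw [hη', hx]
      refine ⟨fun i => hη _ _ (v.2.1 i), fun t => ?_⟩
      rw [wdg_smul, smul_comm, v.2.2, smul_zero]
    refine ⟨⟨_, hxK⟩, ?_⟩
    rw [hφ j hj, pow_add, mul_smul, ← he, ← hπη j hj]
    congr 1
    refine coordA_eq hT hM hη hj (hcol j hj) _ _ fun t => ?_
    show η ^ (n + 1) • wdg (T j) (ι (η' • x)) t = T (j + 1) t • η ^ (n + 2) • (e : E)
    have h2 := coordA_spec hT hM hη hj (hcol j hj) v t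
    rw [hv] at h2
    rw [hη', hx, wdg_smul, smul_comm (η ^ (n + 1)), h2, smul_comm η, smul_smul η, ← pow_succ']

/-- **The flag formula** (`flagK` for `k = 1`). -/
theorem IsTheta.flag (Θ : IsTheta η' q θ Adm) (hT : FlagRelA η T) (hM : Graded T d M)
    (hη : ∀ s, ∀ e ∈ M s, η • e ∈ M s) (hn : 0 < n) (s : G)
    (hcol : ∀ j < n, Col T d M (j + 1) (s + d j))
    (hsko : ∀ j < n, Sko T d M j (s + d j - d (j + 1)))
    {X : Type u} [AddCommGroup X] [Module D X] (hq : ∀ x : X, q • x = 0)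
    (ι : X →+ (Fin n → E)) (hι : Function.Injective ι) (hιM : ∀ x i, ι x i ∈ M s)
    (hιs : ∀ v : Fin n → E, (∀ i, v i ∈ M s) → ∃ x, ι x = v)
    (A : D → Matrix (Fin n) (Fin n) P) (hA : ∀ r x, ι (r • x) = act (A r) (ι x))
    (hAM : ∀ r i l, ∀ e ∈ M s, A r i l • e ∈ M s)
    (c : D → ℕ → P) (hcM : ∀ r j s, ∀ e ∈ M s, c r j • e ∈ M s)
    (hEig : ∀ r, EigRelA η T (A r) (c r))
    (hη' : ∀ x, ι (η' • x) = η • ι x) (hcη : ∀ j, c η' j = η)
    (N : ℕ → Type u) [∀ j, AddCommGroup (N j)] [∀ j, Module D (N j)]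
    (hN : ∀ j < n, Adm (N j)) (hNq : ∀ j < n, ∀ m : N j, q • m = 0)
    (π : ∀ j, M (s + d j - d (j + 1)) →+ N j) (hπ : ∀ j < n, Function.Surjective (π j))
    (hπ0 : ∀ j < n, ∀ e, π j e = 0 → η • (e : E) = 0)
    (hπD : ∀ j < n, ∀ (r : D) (e : M (s + d j - d (j + 1))),
      π j ⟨c r j • (e : E), hcM r j _ _ e.2⟩ = r • π j e) :
    Adm X ∧ θ X = ∑ j ∈ Finset.range n, θ (N j) :=
  Θ.flagK 1 hT hM hη hn s hcol hsko hq ι hι hιM hιs A hA hAM c hcM hEig hη' hcη N hN hNq π
    (fun j hj _ => hπ j hj _) (fun j hj e he => by rw [pow_one]; exact hπ0 j hj e he) hπD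

end Theta

end Vale.Agent.P177.Ap
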