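import Vale.Agent.P177.Ap.FlagAp
import Vale.Agent.P177.Flag.EtaW

/-!
P177: the flag formula for the graded pieces `M s / N s` of a graded family of pairs of ideals of
a commutative ring `W`, relations up to `η` (`η = 1` is allowed).
-/

namespace Vale.Agent.P177.Ap

open Vale.Agent.P177.Flag Vale.Agent.P177.PI

universe u v w

section Conv

variable {W : Type w} [CommRing W] {G : Type v} [AddCommGroup G] {n : ℕ}
  {F : RFam W G} {τ : ∀ j : ℕ, (Fin j → Fin n) → W} {d : ℕ → G} {good : G → Prop} {η : W}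

theorem flagRelA_of (h : FDataE F τ d good η) : FlagRelA (F.cls 0 η) (TT F τ d) where
  zero := h.flagRelE.zero
  same := h.flagRelE.same
  incl := h.flagRelE.incl
  step j ρ t := by
    rw [mul_sub, sub_eq_zero]
    exact h.flagRelE.step j ρ t
  top i t := by
    have h1 : (Pi.single i (1 : F.E) : Fin n → F.E) =
        fun k => F.cls 0 ((Pi.single i (1 : W) : Fin n → W) k) := by
      funext k
      by_cases hk : k = i
      · subst hk
        rw [Pi.single_eq_same, Pi.single_eq_same, F.cls_one]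
      · rw [Pi.single_eq_of_ne hk, Pi.single_eq_of_ne hk, F.cls_zero]
    have hv : ∀ k, (Pi.single i (1 : W) : Fin n → W) k ∈ F.M 0 := fun k => F.mem_zero _
    rw [h1, wdg_cls h.mem hv t, cls_zero_mul η (wdg_mem_M h.mem hv t),
      F.cls_eq_zero_iff (Ideal.mul_mem_left _ _ (wdg_mem_M h.mem hv t)), add_zero]
    exact h.top i t

theorem eigRelA_of (h : FDataE F τ d good η) {X : Matrix (Fin n) (Fin n) W} {c : ℕ → W}
    (hX : ∀ (j : ℕ), j < n → ∀ (ρ : Fin j → Fin n) (t : Fin (j + 1) → Fin n),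
      η * wdg (τ j) (fun i => (∑ l, X i l * τ (j + 1) (Fin.cons l ρ))
        - c j * τ (j + 1) (Fin.cons i ρ)) t ∈ F.N (d j + d (j + 1))) :
    EigRelA (F.cls 0 η) (TT F τ d) (fun i l => F.cls 0 (X i l)) (fun j => F.cls 0 (c j)) := by
  intro j hj ρ t
  have hv' : ∀ i, (∑ l, X i l * τ (j + 1) (Fin.cons l ρ)) - c j * τ (j + 1) (Fin.cons i ρ) ∈
      F.M (d (j + 1)) := fun i =>
    sub_mem (Ideal.sum_mem _ fun l _ => Ideal.mul_mem_left _ _ (h.mem _ _))
      (Ideal.mul_mem_left _ _ (h.mem _ _))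
  have h1 := wdg_cls (F := F) (d := d) h.mem (j := j) (s := d (j + 1)) hv' t
  have h2 : F.cls 0 η * wdg (TT F τ d j) (fun i => F.cls (d (j + 1))
      ((∑ l, X i l * τ (j + 1) (Fin.cons l ρ)) - c j * τ (j + 1) (Fin.cons i ρ))) t = 0 := by
    rw [h1, cls_zero_mul η (wdg_mem_M h.mem hv' t),
      F.cls_eq_zero_iff (Ideal.mul_mem_left _ _ (wdg_mem_M h.mem hv' t))]
    exact hX j hj ρ t
  refine Eq.trans ?_ h2
  congr 2
  funext i
  rw [F.cls_sub (Ideal.sum_mem _ fun l _ => Ideal.mul_mem_left _ _ (h.mem _ _))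
      (Ideal.mul_mem_left _ _ (h.mem _ _)),
    F.cls_sum _ _ fun l _ => Ideal.mul_mem_left _ _ (h.mem _ _)]
  congr 1
  · exact Finset.sum_congr rfl fun l _ => cls_zero_mul _ (h.mem _ _)
  · exact cls_zero_mul _ (h.mem _ _)

end Conv

section Theta

variable {D : Type u} [CommRing D] {η' q : D}
  {θ : ∀ (X : Type u) [AddCommGroup X] [Module D X], ℝ}
  {Adm : ∀ (X : Type u) [AddCommGroup X] [Module D X], Prop}
  {W : Type w} [CommRing W] {G : Type v} [AddCommGroup G] {n : ℕ}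
  {F : RFam W G} {τ : ∀ j : ℕ, (Fin j → Fin n) → W} {d : ℕ → G} {good : G → Prop} {η : W}

/-- **The flag formula**, for `(M s / N s) ^ n`; the pieces are `N j` up to `η ^ k`. -/
theorem IsTheta.flagWK (k : ℕ) (Θ : IsTheta η' q θ Adm) (h : FDataE F τ d good η) (hn : 0 < n) {s : G}
    (hs : good s) (hs1 : ∀ j < n, good (s + d j - d (j + 1)))
    (hs2 : ∀ j < n, good (s - d (j + 1)))
    (hcol : ∀ j < n, ColN F τ d (j + 1) (s + d j))
    (hsko : ∀ j < n, SkoN F τ d j (s + d j - d (j + 1)))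
    {X : Type u} [AddCommGroup X] [Module D X] (hq : ∀ x : X, q • x = 0)
    (e : X ≃+ (Fin n → Gr F s))
    (A : D → Matrix (Fin n) (Fin n) W)
    (hA : ∀ r x i, e (r • x) i = ∑ l, A r i l • e x l)
    (c : D → ℕ → W)
    (hEig : ∀ r, ∀ (j : ℕ), j < n → ∀ (ρ : Fin j → Fin n) (t : Fin (j + 1) → Fin n),
      η * wdg (τ j) (fun i => (∑ l, A r i l * τ (j + 1) (Fin.cons l ρ))
        - c r j * τ (j + 1) (Fin.cons i ρ)) t ∈ F.N (d j + d (j + 1)))
    (hη' : ∀ x i, e (η' • x) i = η • e x i) (hcη : ∀ j, c η' j = η)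
    (N : ℕ → Type u) [∀ j, AddCommGroup (N j)] [∀ j, Module D (N j)]
    (hN : ∀ j < n, Adm (N j)) (hNq : ∀ j < n, ∀ m : N j, q • m = 0)
    (π : ∀ j, Gr F (s + d j - d (j + 1)) →+ N j) (hπ : ∀ j < n, ∀ m : N j, ∃ g, π j g = η' ^ k • m)
    (hπ0 : ∀ j < n, ∀ g, π j g = 0 → η ^ k • g = 0)
    (hπD : ∀ j < n, ∀ (r : D) (g : Gr F (s + d j - d (j + 1))),
      π j (c r j • g) = r • π j g) :
    Adm X ∧ θ X = ∑ j ∈ Finset.range n, θ (N j) := by
  classical
  -- the equivalence of a good part with the quotient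
  let gr : ∀ s' : G, Gr F s' ≃+ F.part s' := fun s' =>
    AddEquiv.ofBijective (grPart F s') (grPart_bijective s')
  have hgr : ∀ s' (x : Gr F s'), gr s' x = grPart F s' x := fun _ _ => rfl
  have hle : ∀ s', MF F good s' ≤ F.part s' := by
    intro s'
    by_cases h1 : good s'
    · rw [MF_of_good h1]
    · rw [MF, if_neg h1]
      exact bot_le
  have hsm : ∀ s' (w : W) (x : F.part s') (hx : F.cls 0 w • (x : F.E) ∈ F.part s'),
      (gr s').symm ⟨F.cls 0 w • (x : F.E), hx⟩ = w • (gr s').symm x := by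
    intro s' w x hx
    rw [AddEquiv.symm_apply_eq]
    apply Subtype.ext
    rw [hgr, grPart_smul, ← hgr, AddEquiv.apply_symm_apply]
  let ι : X →+ (Fin n → F.E) :=
    { toFun := fun x i => ((gr s (e x i) : F.part s) : F.E)
      map_zero' := by
        funext i
        have h1 : e 0 i = 0 := by rw [e.map_zero]; rfl
        rw [h1, (gr s).map_zero]
        rfl
      map_add' := fun x y => by
        funext i
        have h1 : e (x + y) i = e x i + e y i := by rw [e.map_add]; rfl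
        rw [h1, (gr s).map_add]
        rfl }
  have hι : ∀ x i, ι x i = ((gr s (e x i) : F.part s) : F.E) := fun _ _ => rfl
  have hact : ∀ (w : W) (g : Gr F s), ((gr s (w • g) : F.part s) : F.E) =
      F.cls 0 w • ((gr s g : F.part s) : F.E) := by
    intro w g
    rw [hgr, hgr, grPart_smul]
  have hpart : ∀ (w : W) (s' : G), ∀ y ∈ F.part s', F.cls 0 w • y ∈ F.part s' := by
    intro w s' y hy
    obtain ⟨x, hx, rfl⟩ := hy
    rw [smul_eq_mul, cls_zero_mul w hx]
    exact F.cls_mem_part (Ideal.mul_mem_left _ _ hx)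
  let π' : ∀ j, MF F good (s + d j - d (j + 1)) →+ N j := fun j =>
    (π j).comp ((gr (s + d j - d (j + 1))).symm.toAddMonoidHom.comp
      (AddSubgroup.inclusion (hle _)))
  have hπ' : ∀ j (y : MF F good (s + d j - d (j + 1))),
      π' j y = π j ((gr _).symm ⟨y.1, hle _ y.2⟩) := fun _ _ => rfl
  have hpow : ∀ (s' : G) (l : ℕ) (y z : F.part s'), (z : F.E) = F.cls 0 η ^ l • (y : F.E) →
      (gr s').symm z = η ^ l • (gr s').symm y := by
    intro s' l
    induction l with
    | zero =>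
      intro y z hz
      rw [pow_zero, one_smul] at hz ⊢
      rw [Subtype.ext hz]
    | succ l ih =>
      intro y z hz
      have h2 : F.cls 0 η • (y : F.E) ∈ F.part s' := hpart _ _ _ y.2
      rw [pow_succ, mul_smul, ← hsm _ η y h2]
      refine ih ⟨_, h2⟩ z ?_
      rw [hz, pow_succ, mul_smul]
  refine Θ.flagK k (flagRelA_of h) h.graded (fun s' y hy => cls_zero_smul_mem η s' y hy) hn s
    (fun j hj => h.col (h.good_add s j hs) (hs1 j hj) (hcol j hj))
    (fun j hj => h.sko (hs1 j hj) (by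
      have : s + d j - d (j + 1) - d j = s - d (j + 1) := by abel
      rw [this]
      exact hs2 j hj) (hsko j hj)) hq ι ?_ ?_ ?_
    (fun r i l => F.cls 0 (A r i l)) ?_ (fun r i l y hy => cls_zero_smul_mem _ _ _ hy)
    (fun r j => F.cls 0 (c r j)) (fun r j s' y hy => cls_zero_smul_mem _ _ _ hy)
    (fun r => eigRelA_of h (hEig r)) ?_ (fun j => by
      show F.cls 0 (c η' j) = F.cls 0 η
      rw [hcη]) N hN hNq π' ?_ ?_ ?_
  · intro x y hxy
    apply e.injective
    funext i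
    apply (gr s).injective
    apply Subtype.ext
    exact congrFun hxy i
  · intro x i
    rw [MF_of_good hs, hι]
    exact (gr s (e x i)).2
  · intro v hv
    rw [MF_of_good hs] at hv
    refine ⟨e.symm fun i => (gr s).symm ⟨v i, hv i⟩, ?_⟩
    funext i
    rw [hι, AddEquiv.apply_symm_apply, AddEquiv.apply_symm_apply]
  · intro r x
    funext i
    have h1 : ∀ (f : Fin n → Gr F s), ((gr s (∑ l, f l) : F.part s) : F.E) =
        ∑ l, ((gr s (f l) : F.part s) : F.E) := fun f =>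
      map_sum ((F.part s).subtype.comp (gr s).toAddMonoidHom) f Finset.univ
    rw [hι, hA, h1]
    exact Finset.sum_congr rfl fun l _ => hact _ _
  · intro x
    funext i
    rw [hι, hη', hact]
    rfl
  · intro j hj m
    obtain ⟨g, hg⟩ := hπ j hj m
    refine ⟨⟨(gr _ g : F.part _), by
      rw [MF_of_good (hs1 j hj)]
      exact (gr _ g).2⟩, ?_⟩
    rw [hπ', ← hg]
    congr 1
    rw [AddEquiv.symm_apply_eq]
  · intro j hj y hy
    rw [hπ'] at hy
    have h1 := hπ0 j hj _ hy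
    have h3 : F.cls 0 η ^ k • (y : F.E) ∈ F.part (s + d j - d (j + 1)) := by
      have : ∀ l : ℕ, F.cls 0 η ^ l • (y : F.E) ∈ F.part (s + d j - d (j + 1)) := by
        intro l
        induction l with
        | zero => rw [pow_zero, one_smul]; exact hle _ y.2
        | succ l ih => rw [pow_succ', mul_smul]; exact hpart _ _ _ ih
      exact this k
    rw [← hpow _ k ⟨y.1, hle _ y.2⟩ ⟨_, h3⟩ rfl, AddEquiv.symm_apply_eq] at h1
    have h2 : gr (s + d j - d (j + 1)) 0 = 0 := (gr (s + d j - d (j + 1))).map_zero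
    exact congrArg Subtype.val (h1.trans h2)
  · intro j hj r y
    rw [hπ', hπ', ← hπD j hj]
    congr 1
    exact hsm _ (c r j) ⟨y.1, hle _ y.2⟩ _

/-- **The flag formula**, for `(M s / N s) ^ n` (`flagWK` for `k = 1`). -/
theorem IsTheta.flagW (Θ : IsTheta η' q θ Adm) (h : FDataE F τ d good η) (hn : 0 < n) {s : G}
    (hs : good s) (hs1 : ∀ j < n, good (s + d j - d (j + 1)))
    (hs2 : ∀ j < n, good (s - d (j + 1)))
    (hcol : ∀ j < n, ColN F τ d (j + 1) (s + d j))
    (hsko : ∀ j < n, SkoN F τ d j (s + d j - d (j + 1)))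
    {X : Type u} [AddCommGroup X] [Module D X] (hq : ∀ x : X, q • x = 0)
    (e : X ≃+ (Fin n → Gr F s))
    (A : D → Matrix (Fin n) (Fin n) W)
    (hA : ∀ r x i, e (r • x) i = ∑ l, A r i l • e x l)
    (c : D → ℕ → W)
    (hEig : ∀ r, ∀ (j : ℕ), j < n → ∀ (ρ : Fin j → Fin n) (t : Fin (j + 1) → Fin n),
      η * wdg (τ j) (fun i => (∑ l, A r i l * τ (j + 1) (Fin.cons l ρ))
        - c r j * τ (j + 1) (Fin.cons i ρ)) t ∈ F.N (d j + d (j + 1)))
    (hη' : ∀ x i, e (η' • x) i = η • e x i) (hcη : ∀ j, c η' j = η)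
    (N : ℕ → Type u) [∀ j, AddCommGroup (N j)] [∀ j, Module D (N j)]
    (hN : ∀ j < n, Adm (N j)) (hNq : ∀ j < n, ∀ m : N j, q • m = 0)
    (π : ∀ j, Gr F (s + d j - d (j + 1)) →+ N j) (hπ : ∀ j < n, Function.Surjective (π j))
    (hπ0 : ∀ j < n, ∀ g, π j g = 0 → η • g = 0)
    (hπD : ∀ j < n, ∀ (r : D) (g : Gr F (s + d j - d (j + 1))),
      π j (c r j • g) = r • π j g) :
    Adm X ∧ θ X = ∑ j ∈ Finset.range n, θ (N j) :=
  Θ.flagWK 1 h hn hs hs1 hs2 hcol hsko hq e A hA c hEig hη' hcη N hN hNq π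
    (fun j hj _ => hπ j hj _) (fun j hj g hg => by rw [pow_one]; exact hπ0 j hj g hg) hπD

end Theta

end Vale.Agent.P177.Ap
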