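import Vale.Agent.P177.Ap.FlagW
import Vale.Agent.P177.Flag.SumW
import Vale.Agent.P177.Flag.Tri

/-!
P177: the flag formula for the module `Y ⊗[Λ] L`, `Y = M s / N s`, `L` an `R`-module which is free
over `Λ`; the pieces are given up to `η ^ k`.
-/

namespace Vale.Agent.P177.Ap

open Vale.Agent.P177.Flag Vale.Agent.P177.PI TensorProduct

universe u v w

section Gen

variable {W : Type w} [CommRing W] {G : Type v} [AddCommGroup G] {n : ℕ}

variable {F : RFam W G} {τ : ∀ j : ℕ, (Fin j → Fin n) → W} {d : ℕ → G} {good : G → Prop} {η : W}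

variable {R : Type*} [CommRing R] {D : Type u} [CommRing D] {q : D}
  {θ : ∀ (X : Type u) [AddCommGroup X] [Module D X], ℝ}
  {Adm : ∀ (X : Type u) [AddCommGroup X] [Module D X], Prop}

/-- **The flag formula**, for a ring `D` additively generated by products of elements coming from
`W` and `R` (for example `D = R ⊗ W`); the pieces are given up to `η ^ k`. -/
theorem theta_sum_genK (k : ℕ) (iR : R →+* D) (iW : W →+* D)
    (hgen : ∀ y : D, y ∈ AddSubgroup.closure {z : D | ∃ (r : R) (a : W), z = iW a * iR r})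
    (Θ : IsTheta (iW η) q θ Adm)
    (h : FDataE F τ d good η) (hn : 0 < n) {s : G}
    (hs : good s) (hs1 : ∀ j < n, good (s + d j - d (j + 1)))
    (hs2 : ∀ j < n, good (s - d (j + 1)))
    (hcol : ∀ j < n, ColN F τ d (j + 1) (s + d j))
    (hsko : ∀ j < n, SkoN F τ d j (s + d j - d (j + 1)))
    {X : Type u} [AddCommGroup X] [Module D X] (hq : ∀ x : X, q • x = 0)
    (e : X ≃+ (Fin n → Gr F s))
    (heW : ∀ (a : W) (x : X), e (iW a • x) = a • e x)
    (A : R → Matrix (Fin n) (Fin n) W)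
    (heR : ∀ (r : R) (x : X) (i), e (iR r • x) i = ∑ l, A r i l • e x l)
    (c : R → ℕ → W) (hEig : ∀ r, EigNA F τ d η (A r) (c r))
    (N : ℕ → Type u) [∀ j, AddCommGroup (N j)] [∀ j, Module D (N j)]
    (hN : ∀ j < n, Adm (N j)) (hNq : ∀ j < n, ∀ m : N j, q • m = 0)
    (π : ∀ j, Gr F (s + d j - d (j + 1)) →+ N j)
    (hπ : ∀ j < n, ∀ m : N j, ∃ g, π j g = iW η ^ k • m)
    (hπ0 : ∀ j < n, ∀ x, π j x = 0 → η ^ k • x = 0)
    (hπW : ∀ j < n, ∀ (a : W) (x), π j (a • x) = iW a • π j x)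
    (hπR : ∀ j < n, ∀ (r : R) (x), π j (c r j • x) = iR r • π j x) :
    Adm X ∧ θ X = ∑ j ∈ Finset.range n, θ (N j) := by
  classical
  have key : ∀ y : D, ∃ (A' : Matrix (Fin n) (Fin n) W) (c' : ℕ → W),
      (∀ (x : X) (i), e (y • x) i = ∑ l, A' i l • e x l) ∧ EigNA F τ d η A' c' ∧
      ∀ j < n, ∀ x, π j (c' j • x) = y • π j x := by
    intro y
    refine AddSubgroup.closure_induction (p := fun y _ =>
      ∃ (A' : Matrix (Fin n) (Fin n) W) (c' : ℕ → W),
      (∀ (x : X) (i), e (y • x) i = ∑ l, A' i l • e x l) ∧ EigNA F τ d η A' c' ∧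
      ∀ j < n, ∀ x, π j (c' j • x) = y • π j x) ?_ ?_ ?_ ?_ (hgen y)
    · rintro _ ⟨r, a, rfl⟩
      refine ⟨a • A r, a • c r, fun x i => ?_, (hEig r).smul a, fun j hj x => ?_⟩
      · rw [mul_smul, heW, Pi.smul_apply, heR, Finset.smul_sum]
        refine Finset.sum_congr rfl fun l _ => ?_
        rw [smul_smul, Matrix.smul_apply, smul_eq_mul]
      · rw [mul_smul, ← hπR j hj, ← hπW j hj, smul_smul, Pi.smul_apply, smul_eq_mul]
    · refine ⟨0, 0, fun x i => ?_, EigNA.zero, fun j _ x => ?_⟩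
      · rw [zero_smul, AddEquiv.map_zero, Pi.zero_apply]
        simp
      · rw [Pi.zero_apply, zero_smul, zero_smul, AddMonoidHom.map_zero]
    · rintro y z _ _ ⟨A1, c1, h1, h2, h3⟩ ⟨A2, c2, h4, h5, h6⟩
      refine ⟨A1 + A2, c1 + c2, fun x i => ?_, h2.add h5, fun j hj x => ?_⟩
      · rw [add_smul, AddEquiv.map_add, Pi.add_apply, h1, h4, ← Finset.sum_add_distrib]
        refine Finset.sum_congr rfl fun l _ => ?_
        rw [Matrix.add_apply, add_smul]
      · rw [Pi.add_apply, add_smul, AddMonoidHom.map_add, h3 j hj, h6 j hj, add_smul]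
    · rintro y _ ⟨A1, c1, h1, h2, h3⟩
      refine ⟨(-1 : W) • A1, (-1 : W) • c1, fun x i => ?_, h2.smul _, fun j hj x => ?_⟩
      · rw [neg_smul, AddEquiv.map_neg, Pi.neg_apply, h1, ← Finset.sum_neg_distrib]
        refine Finset.sum_congr rfl fun l _ => ?_
        rw [Matrix.smul_apply, smul_eq_mul, neg_one_mul, neg_smul]
      · rw [Pi.smul_apply, smul_eq_mul, neg_one_mul, neg_smul, AddMonoidHom.map_neg, h3 j hj,
          neg_smul]
  have key' : ∀ y : D, ∃ (A' : Matrix (Fin n) (Fin n) W) (c' : ℕ → W),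
      (∀ (x : X) (i), e (y • x) i = ∑ l, A' i l • e x l) ∧ EigNA F τ d η A' c' ∧
      (∀ j < n, ∀ x, π j (c' j • x) = y • π j x) ∧
      (y = iW η → ∀ j, c' j = η) := by
    intro y
    by_cases hy : y = iW η
    · refine ⟨η • 1, fun _ => η, fun x i => ?_, EigNA.one η, fun j hj x => ?_, fun _ _ => rfl⟩
      · rw [hy, heW, Pi.smul_apply]
        simp [Matrix.smul_apply, Matrix.one_apply]
      · rw [hy]
        exact hπW j hj η x
    · obtain ⟨A', c', h1, h2, h3⟩ := key y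
      exact ⟨A', c', h1, h2, h3, fun h => absurd h hy⟩
  choose A' c' h1 h2 h3 h4 using key'
  exact IsTheta.flagWK k Θ h hn hs hs1 hs2 hcol hsko hq e A' h1 c' (fun r => h2 r)
    (fun x i => by rw [heW, Pi.smul_apply]) (h4 _ rfl) N hN hNq π hπ hπ0
    (fun j hj r x => h3 r j hj x)

end Gen

section Tensor

variable {Λ R L : Type*} [CommRing Λ] [CommRing R] [Algebra Λ R] [AddCommGroup L] [Module R L]
  [Module Λ L] [IsScalarTower Λ R L] {n : ℕ} (b : Module.Basis (Fin n) Λ L)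
  (Y : Type*) [AddCommGroup Y] [Module Λ Y]

/-- `Y ⊗ L = Y ^ n`. -/
noncomputable def tenPi : Y ⊗[Λ] L ≃ₗ[Λ] (Fin n → Y) :=
  (TensorProduct.congr (LinearEquiv.refl Λ Y) b.equivFun).trans
    (TensorProduct.piScalarRight Λ Λ Y (Fin n))

theorem tenPi_tmul (y : Y) (l : L) (i : Fin n) : tenPi b Y (y ⊗ₜ l) i = b.repr l i • y := by
  simp [tenPi]

theorem tenPi_tmul_smul (r : R) (y : Y) (l : L) (i : Fin n) :
    tenPi b Y (y ⊗ₜ (r • l)) i = ∑ j, actMat b r i j • tenPi b Y (y ⊗ₜ l) j := by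
  rw [tenPi_tmul]
  have h1 : b.repr (r • l) i = ∑ j, actMat b r i j * b.repr l j := by
    conv_lhs => rw [← b.sum_repr l, Finset.smul_sum]
    rw [map_sum, Finsupp.finsetSum_apply]
    refine Finset.sum_congr rfl fun j _ => ?_
    rw [actMat_apply, smul_comm, map_smul, Finsupp.smul_apply, smul_eq_mul, mul_comm]
  rw [h1, Finset.sum_smul]
  exact Finset.sum_congr rfl fun j _ => by rw [tenPi_tmul, mul_smul]

end Tensor

section Main

variable {W : Type w} [CommRing W] {G : Type v} [AddCommGroup G] {n : ℕ}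

variable {F : RFam W G} {τ : ∀ j : ℕ, (Fin j → Fin n) → W} {d : ℕ → G} {good : G → Prop} {η : W}

variable {D : Type u} [CommRing D] {q : D}
  {θ : ∀ (X : Type u) [AddCommGroup X] [Module D X], ℝ}
  {Adm : ∀ (X : Type u) [AddCommGroup X] [Module D X], Prop}

variable {Λ R L : Type*} [CommRing Λ] [CommRing R] [Algebra Λ R] [AddCommGroup L] [Module R L]
  [Module Λ L] [IsScalarTower Λ R L] (b : Module.Basis (Fin n) Λ L)
  {Y : Type*} [AddCommGroup Y] [Module Λ Y]

/-- **The flag formula for `X = Y ⊗[Λ] L`**, `Y = M s / N s`. -/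
theorem theta_tensor (k : ℕ) (iR : R →+* D) (iW : W →+* D) (φ : Λ →+* W)
    (hgen : ∀ y : D, y ∈ AddSubgroup.closure {z : D | ∃ (r : R) (a : W), z = iW a * iR r})
    (Θ : IsTheta (iW η) q θ Adm)
    (h : FDataE F τ d good η) (hn : 0 < n) {s : G}
    (hs : good s) (hs1 : ∀ j < n, good (s + d j - d (j + 1)))
    (hs2 : ∀ j < n, good (s - d (j + 1)))
    (hcol : ∀ j < n, ColN F τ d (j + 1) (s + d j))
    (hsko : ∀ j < n, SkoN F τ d j (s + d j - d (j + 1)))
    (eY : Y ≃+ Gr F s) (hY : ∀ (a : Λ) (y : Y), eY (a • y) = φ a • eY y)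
    {X : Type u} [AddCommGroup X] [Module D X] (hq : ∀ x : X, q • x = 0)
    (eX : Y ⊗[Λ] L ≃+ X)
    (heXR : ∀ (r : R) (y : Y) (l : L), eX (y ⊗ₜ (r • l)) = iR r • eX (y ⊗ₜ l))
    (heXW : ∀ (a : W) (y : Y) (l : L), eX (eY.symm (a • eY y) ⊗ₜ l) = iW a • eX (y ⊗ₜ l))
    (c : R → ℕ → W) (hEig : ∀ r, EigNA F τ d η ((actMat b r).map φ) (c r))
    (N : ℕ → Type u) [∀ j, AddCommGroup (N j)] [∀ j, Module D (N j)]
    (hN : ∀ j < n, Adm (N j)) (hNq : ∀ j < n, ∀ m : N j, q • m = 0)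
    (π : ∀ j, Gr F (s + d j - d (j + 1)) →+ N j)
    (hπ : ∀ j < n, ∀ m : N j, ∃ g, π j g = iW η ^ k • m)
    (hπ0 : ∀ j < n, ∀ x, π j x = 0 → η ^ k • x = 0)
    (hπW : ∀ j < n, ∀ (a : W) (x), π j (a • x) = iW a • π j x)
    (hπR : ∀ j < n, ∀ (r : R) (x), π j (c r j • x) = iR r • π j x) :
    Adm X ∧ θ X = ∑ j ∈ Finset.range n, θ (N j) := by
  classical
  -- the coordinates
  let eP : (Fin n → Y) ≃+ (Fin n → Gr F s) := AddEquiv.piCongrRight fun _ => eY
  have heP : ∀ v i, eP v i = eY (v i) := fun _ _ => rfl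
  let e : X ≃+ (Fin n → Gr F s) :=
    (eX.symm.trans (tenPi b Y).toAddEquiv).trans eP
  have he : ∀ (z : Y ⊗[Λ] L) (i), e (eX z) i = eY (tenPi b Y z i) := by
    intro z i
    show eY ((tenPi b Y) (eX.symm (eX z)) i) = _
    rw [AddEquiv.symm_apply_apply]
  have hind : ∀ (P : X → Prop), (∀ y l, P (eX (y ⊗ₜ l))) → P 0 → (∀ x x', P x → P x' → P (x + x')) →
      ∀ x, P x := by
    intro P h1 h0 h2 x
    obtain ⟨z, rfl⟩ := eX.surjective x
    induction z using TensorProduct.induction_on with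
    | zero => rwa [eX.map_zero]
    | tmul y l => exact h1 y l
    | add z z' hz hz' => rw [eX.map_add]; exact h2 _ _ hz hz'
  have he0 : e 0 = 0 := e.map_zero
  have hea : ∀ x x', e (x + x') = e x + e x' := fun x x' => e.map_add x x'
  refine theta_sum_genK k iR iW hgen Θ h hn hs hs1 hs2 hcol hsko hq e ?_
    (fun r => (actMat b r).map φ) ?_ c hEig N hN hNq π hπ hπ0 hπW hπR
  · intro a x
    refine hind (fun x => e (iW a • x) = a • e x) ?_ ?_ ?_ x
    · intro y l
      funext i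
      rw [← heXW, he, Pi.smul_apply, he, tenPi_tmul, tenPi_tmul, hY, hY, AddEquiv.apply_symm_apply,
        smul_comm]
    · rw [smul_zero, he0, smul_zero]
    · intro x x' hx hx'
      rw [smul_add, hea, hx, hx', hea, smul_add]
  · intro r x
    refine hind (fun x => ∀ i, e (iR r • x) i = ∑ l, (actMat b r).map φ i l • e x l) ?_ ?_ ?_ x
    · intro y l i
      rw [← heXR, he, tenPi_tmul_smul, map_sum]
      refine Finset.sum_congr rfl fun j _ => ?_
      rw [he, hY, Matrix.map_apply]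
    · intro i
      rw [smul_zero, he0]
      simp
    · intro x x' hx hx' i
      rw [smul_add, hea, Pi.add_apply, hx, hx', hea, ← Finset.sum_add_distrib]
      exact Finset.sum_congr rfl fun l _ => by rw [Pi.add_apply, smul_add]

end Main

end Vale.Agent.P177.Ap
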