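import Mathlib

/-!
P177: the `R ⊗[ℤ] W`-module `Y ⊗[Λ] L`, for a `W`-module `Y` (a `Λ`-module through `φ : Λ →+* W`)
and an `R`-module `L` over the `Λ`-algebra `R`.
-/

namespace Vale.Agent.P177.Ap

open TensorProduct

universe u

section Def

variable {Λ W : Type u} [CommRing Λ] [CommRing W]

/-- a `W`-module, as a `Λ`-module through `φ`. -/
@[nolint unusedArguments]
def LM (_ : Λ →+* W) (Y : Type u) : Type u := Y

variable (φ : Λ →+* W) (Y : Type u) [AddCommGroup Y] [Module W Y]

instance : AddCommGroup (LM φ Y) := inferInstanceAs (AddCommGroup Y)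

instance : Module W (LM φ Y) := inferInstanceAs (Module W Y)

instance : Module Λ (LM φ Y) := Module.compHom Y φ

theorem LM.smul_def (a : Λ) (y : LM φ Y) : a • y = φ a • y := rfl

instance : SMulCommClass W Λ (LM φ Y) where
  smul_comm w a y := by
    rw [LM.smul_def, LM.smul_def, smul_smul, smul_smul, mul_comm]

variable {Y} {Y' : Type u} [AddCommGroup Y'] [Module W Y']

/-- a `W`-linear map, as a `Λ`-linear map. -/
def LM.map (f : Y →ₗ[W] Y') : LM φ Y →ₗ[Λ] LM φ Y' where
  toFun := f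
  map_add' := f.map_add
  map_smul' a y := f.map_smul (φ a) y

@[simp]
theorem LM.map_apply (f : Y →ₗ[W] Y') (y : LM φ Y) : LM.map φ f y = f y := rfl

end Def

section Gen

variable {R W D : Type*} [CommRing R] [CommRing W] [CommRing D] (iR : R →+* D) (iW : W →+* D)
    (hgen : ∀ y : D, y ∈ AddSubgroup.closure {z : D | ∃ (r : R) (a : W), z = iW a * iR r})

include hgen in
/-- an additive map commuting with `R` and `W` is linear. -/
theorem map_smul_of_gen {X X' : Type*} [AddCommGroup X] [AddCommGroup X'] [Module D X]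
    [Module D X'] (f : X →+ X') (hR : ∀ r x, f (iR r • x) = iR r • f x)
    (hW : ∀ w x, f (iW w • x) = iW w • f x) (d : D) (x : X) :
    f (d • x) = d • f x := by
  refine AddSubgroup.closure_induction (p := fun d _ => f (d • x) = d • f x) ?_ ?_ ?_ ?_ (hgen d)
  · rintro _ ⟨r, a, rfl⟩
    rw [mul_smul, hW, hR, mul_smul]
  · rw [zero_smul, zero_smul, map_zero]
  · intro a b _ _ ha hb
    rw [add_smul, map_add, ha, hb, add_smul]
  · intro a _ ha
    rw [neg_smul, map_neg, ha, neg_smul]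

theorem regular_pow {Y : Type*} [AddCommGroup Y] [Module W Y] {a : W}
    (ha : ∀ y : Y, a • y = 0 → y = 0) (k : ℕ) : ∀ y : Y, a ^ k • y = 0 → y = 0 := by
  induction k with
  | zero => intro y hy; rwa [pow_zero, one_smul] at hy
  | succ k ih =>
    intro y hy
    rw [pow_succ, mul_smul] at hy
    exact ha _ (ih _ hy)

theorem lsmul_injective {Y : Type*} [AddCommGroup Y] [Module W Y] {a : W}
    (ha : ∀ y : Y, a • y = 0 → y = 0) : Function.Injective (LinearMap.lsmul W Y a) := by
  rw [injective_iff_map_eq_zero]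
  exact ha

end Gen

section Ten

variable {Λ R W : Type u} [CommRing Λ] [CommRing R] [Algebra Λ R] [CommRing W] (φ : Λ →+* W)
  (Y : Type u) [AddCommGroup Y] [Module W Y]
  (L : Type u) [AddCommGroup L] [Module R L] [Module Λ L] [IsScalarTower Λ R L]

/-- `Y ⊗[Λ] L`. -/
abbrev TenM : Type u := LM φ Y ⊗[Λ] L

variable (R) in
/-- the action of `R`. -/
noncomputable def tenR : R →ₐ[ℤ] Module.End Λ (TenM φ Y L) :=
  ((Module.End.lTensorAlgHom Λ L (LM φ Y)).toRingHom.comp (Module.toModuleEnd Λ L)).toIntAlgHom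

/-- the action of `W`. -/
noncomputable def tenW : W →ₐ[ℤ] Module.End Λ (TenM φ Y L) :=
  ((Module.End.rTensorAlgHom Λ (LM φ Y) L).toRingHom.comp
      (Module.toModuleEnd Λ (LM φ Y))).toIntAlgHom

theorem tenR_tmul (r : R) (y : LM φ Y) (l : L) : tenR R φ Y L r (y ⊗ₜ l) = y ⊗ₜ (r • l) := rfl

theorem tenW_tmul (w : W) (y : LM φ Y) (l : L) : tenW φ Y L w (y ⊗ₜ l) = (w • y) ⊗ₜ l := rfl

theorem ten_commute (r : R) (w : W) : Commute (tenR R φ Y L r) (tenW φ Y L w) := by
  refine TensorProduct.ext' fun y l => ?_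
  rfl

/-- the action of `R ⊗ W`. -/
noncomputable def tenHom : R ⊗[ℤ] W →ₐ[ℤ] Module.End Λ (TenM φ Y L) :=
  Algebra.TensorProduct.lift (tenR R φ Y L) (tenW φ Y L) (ten_commute φ Y L)

theorem tenHom_tmul (r : R) (w : W) (y : LM φ Y) (l : L) :
    tenHom φ Y L (r ⊗ₜ w) (y ⊗ₜ l) = (w • y) ⊗ₜ (r • l) := by
  unfold tenHom
  rw [Algebra.TensorProduct.lift_tmul]
  rfl

variable (R) in
/-- the `R ⊗ W`-module structure. -/
noncomputable instance tenModule : Module (R ⊗[ℤ] W) (TenM φ Y L) :=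
  Module.compHom _ (tenHom (R := R) φ Y L).toRingHom

variable {φ Y L}

theorem ten_smul_def (d : R ⊗[ℤ] W) (x : TenM φ Y L) : d • x = tenHom φ Y L d x := rfl

theorem tmul_smul_tmul (r : R) (w : W) (y : LM φ Y) (l : L) :
    (r ⊗ₜ[ℤ] w : R ⊗[ℤ] W) • (y ⊗ₜ[Λ] l : TenM φ Y L) = (w • y) ⊗ₜ (r • l) :=
  tenHom_tmul φ Y L r w y l

/-- The ring homomorphism `R → R ⊗ W`. -/
noncomputable def inR (R W : Type u) [CommRing R] [CommRing W] : R →+* R ⊗[ℤ] W :=
  (Algebra.TensorProduct.includeLeft : R →ₐ[ℤ] R ⊗[ℤ] W).toRingHom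

/-- The ring homomorphism `W → R ⊗ W`. -/
noncomputable def inW (R W : Type u) [CommRing R] [CommRing W] : W →+* R ⊗[ℤ] W :=
  (Algebra.TensorProduct.includeRight : W →ₐ[ℤ] R ⊗[ℤ] W).toRingHom

theorem inR_smul_tmul (r : R) (y : LM φ Y) (l : L) :
    inR R W r • (y ⊗ₜ[Λ] l : TenM φ Y L) = y ⊗ₜ (r • l) := by
  have := tmul_smul_tmul (φ := φ) r (1 : W) y l
  rwa [one_smul] at this

theorem inW_smul_tmul (w : W) (y : LM φ Y) (l : L) :
    inW R W w • (y ⊗ₜ[Λ] l : TenM φ Y L) = (w • y) ⊗ₜ l := by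
  have := tmul_smul_tmul (φ := φ) (1 : R) w y l
  rwa [one_smul] at this

theorem ten_gen (y : R ⊗[ℤ] W) :
    y ∈ AddSubgroup.closure {z : R ⊗[ℤ] W | ∃ (r : R) (a : W), z = inW R W a * inR R W r} := by
  induction y using TensorProduct.induction_on with
  | zero => exact zero_mem _
  | tmul r a =>
    refine AddSubgroup.subset_closure ⟨r, a, ?_⟩
    show _ = ((1 : R) ⊗ₜ[ℤ] a) * (r ⊗ₜ[ℤ] (1 : W))
    rw [Algebra.TensorProduct.tmul_mul_tmul, one_mul, mul_one]
  | add y z hy hz => exact add_mem hy hz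

variable {Y' : Type u} [AddCommGroup Y'] [Module W Y']

variable (φ L) in
/-- functoriality in `Y`. -/
noncomputable def TenM.map (f : Y →ₗ[W] Y') : TenM φ Y L →ₗ[R ⊗[ℤ] W] TenM φ Y' L where
  toFun := (LM.map φ f).rTensor L
  map_add' := map_add _
  map_smul' d x := by
    refine map_smul_of_gen (inR R W) (inW R W) ten_gen
      (((LM.map φ f).rTensor L : TenM φ Y L →ₗ[Λ] TenM φ Y' L) : TenM φ Y L →+ TenM φ Y' L)
      ?_ ?_ d x
    · intro r x
      induction x using TensorProduct.induction_on with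
      | zero => simp
      | tmul y l =>
        rw [inR_smul_tmul]
        exact (inR_smul_tmul (φ := φ) r (f y) l).symm
      | add x x' hx hx' => rw [smul_add, map_add, hx, hx', map_add, smul_add]
    · intro w x
      induction x using TensorProduct.induction_on with
      | zero => simp
      | tmul y l =>
        rw [inW_smul_tmul]
        refine Eq.trans ?_ (inW_smul_tmul (R := R) (φ := φ) w (f y) l).symm
        exact congrArg (fun z : LM φ Y' => z ⊗ₜ[Λ] l) (f.map_smul w y)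
      | add x x' hx hx' => rw [smul_add, map_add, hx, hx', map_add, smul_add]

theorem TenM.map_apply (f : Y →ₗ[W] Y') (x : TenM φ Y L) :
    TenM.map (R := R) φ L f x = (LM.map φ f).rTensor L x := rfl

theorem TenM.map_surjective (f : Y →ₗ[W] Y') (hf : Function.Surjective f) :
    Function.Surjective (TenM.map (R := R) φ L f) :=
  LinearMap.rTensor_surjective L (g := LM.map φ f) hf

/-- the kernel of `Y ⊗ L → Y' ⊗ L`, if the kernel of `Y → Y'` is `a Y`, `a ∈ W`. -/
theorem TenM.map_eq_zero_iff (f : Y →ₗ[W] Y') (hf : Function.Surjective f) (a : W)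
    (hker : ∀ y, f y = 0 ↔ ∃ z, y = a • z) (x : TenM φ Y L) :
    TenM.map (R := R) φ L f x = 0 ↔ ∃ z, x = inW R W a • z := by
  have h1 : Function.Exact (LM.map φ (LinearMap.lsmul W Y a)) (LM.map φ f) := by
    intro y
    rw [LM.map_apply]
    refine (hker y).trans ?_
    constructor
    · rintro ⟨z, rfl⟩
      exact ⟨z, rfl⟩
    · rintro ⟨z, hz⟩
      exact ⟨z, hz.symm⟩
  have h2 := rTensor_exact L h1 (g := LM.map φ f) hf
  have h3 : ∀ z : TenM φ Y L, (LM.map φ (LinearMap.lsmul W Y a)).rTensor L z =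
      inW R W a • z := by
    intro z
    induction z using TensorProduct.induction_on with
    | zero => simp
    | tmul y l => rw [LinearMap.rTensor_tmul, inW_smul_tmul]; rfl
    | add x x' hx hx' => rw [map_add, hx, hx', smul_add]
  rw [TenM.map_apply, h2 x]
  constructor
  · rintro ⟨z, rfl⟩
    exact ⟨z, h3 z⟩
  · rintro ⟨z, rfl⟩
    exact ⟨z, h3 z⟩

/-- `a ∈ W` regular on `Y` is regular on `Y ⊗ L`. -/
theorem TenM.eq_zero_of_smul [Module.Flat Λ L] (a : W) (ha : ∀ y : Y, a • y = 0 → y = 0)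
    (x : TenM φ Y L) (hx : inW R W a • x = 0) : x = 0 := by
  have h3 : ∀ z : TenM φ Y L, (LM.map φ (LinearMap.lsmul W Y a)).rTensor L z =
      inW R W a • z := by
    intro z
    induction z using TensorProduct.induction_on with
    | zero => simp
    | tmul y l => rw [LinearMap.rTensor_tmul, inW_smul_tmul]; rfl
    | add x x' hx hx' => rw [map_add, hx, hx', smul_add]
  have h4 : Function.Injective (LM.map φ (LinearMap.lsmul W Y a)) := lsmul_injective ha
  have h5 := Module.Flat.rTensor_preserves_injective_linearMap (M := L) _ h4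
  refine h5 ?_
  rw [h3, hx, map_zero]

/-- elements of `R` killing `L` kill `Y ⊗ L`. -/
theorem TenM.inR_smul_eq_zero {r : R} (hr : ∀ l : L, r • l = 0) (x : TenM φ Y L) :
    inR R W r • x = 0 := by
  induction x using TensorProduct.induction_on with
  | zero => simp
  | tmul y l => rw [inR_smul_tmul, hr, tmul_zero]
  | add x x' hx hx' => rw [smul_add, hx, hx', add_zero]

theorem inR_natCast (n : ℕ) : inR R W (n : R) = inW R W (n : W) := by
  rw [map_natCast, map_natCast]

variable {p : ℕ} {α β : R} {c : ℕ}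

/-- `α` acts as `p ^ c`. -/
theorem TenM.alpha_smul (hαβ : (p : R) ^ c = α + β) (hβ : ∀ l : L, β • l = 0) (x : TenM φ Y L) :
    inR R W α • x = inW R W ((p : W) ^ c) • x := by
  have h1 : inW R W ((p : W) ^ c) = inR R W α + inR R W β := by
    rw [← map_add, ← hαβ, map_pow, map_pow, inR_natCast]
  rw [h1, add_smul, TenM.inR_smul_eq_zero hβ, add_zero]

theorem TenM.alpha_pow_smul (hαβ : (p : R) ^ c = α + β) (hβ : ∀ l : L, β • l = 0) (m : ℕ)
    (x : TenM φ Y L) : inR R W α ^ m • x = inW R W ((p : W) ^ (c * m)) • x := by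
  induction m generalizing x with
  | zero => rw [pow_zero, one_smul, mul_zero, pow_zero, map_one, one_smul]
  | succ m ih =>
    rw [pow_succ, mul_smul, ih, TenM.alpha_smul hαβ hβ, smul_smul, ← map_mul, ← pow_add,
      Nat.mul_succ]

/-- **Main statement.** -/
theorem TenM.trunc [Module.Flat Λ L] (hαβ : (p : R) ^ c = α + β) (hβ : ∀ l : L, β • l = 0)
    (hY : ∀ y : Y, (p : W) • y = 0 → y = 0) (f : Y →ₗ[W] Y') (hf : Function.Surjective f) (m : ℕ)
    (hker : ∀ y, f y = 0 ↔ ∃ z, y = (p : W) ^ (c * (m + 1)) • z) :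
    (∀ v : TenM φ Y L, inR R W α • v = 0 → v = 0) ∧
    Function.Surjective (TenM.map (R := R) φ L f) ∧
    (∀ v : TenM φ Y L, TenM.map (R := R) φ L f v = 0 ↔ ∃ w, v = inR R W α ^ (m + 1) • w) ∧
    (∀ x : TenM φ Y' L, inR R W α ^ (m + 1) • x = 0) := by
  have h3 : ∀ v : TenM φ Y L, TenM.map (R := R) φ L f v = 0 ↔
      ∃ w, v = inR R W α ^ (m + 1) • w := by
    intro v
    rw [TenM.map_eq_zero_iff f hf _ hker]
    refine exists_congr fun w => ?_
    rw [TenM.alpha_pow_smul hαβ hβ]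
  refine ⟨fun v hv => ?_, TenM.map_surjective f hf, h3, fun x => ?_⟩
  · rw [TenM.alpha_smul hαβ hβ] at hv
    exact TenM.eq_zero_of_smul _ (regular_pow hY c) v hv
  · obtain ⟨v, rfl⟩ := TenM.map_surjective (R := R) (φ := φ) (L := L) f hf x
    rw [← map_smul]
    exact (h3 _).2 ⟨v, rfl⟩

end Ten

end Vale.Agent.P177.Ap
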